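import Vale.Agent.P293.NotPoly
import Vale.Agent.P293.Stable
import Mathlib.Algebra.MvPolynomial.Equiv
import Mathlib.Algebra.Polynomial.Bivariate
import Vale.Agent.P293.Cancel
import Mathlib.Logic.Equiv.Fin.Rotate

namespace Vale.Agent.Results.P295.FromCancel

open MvPolynomial

/-- A polynomial in five complex variables that becomes a coordinate after adjoining one new
variable but is not a coordinate. -/
theorem result :
    ∃ f : MvPolynomial (Fin 5) ℂ,
      (∃ φ : AlgEquiv ℂ (MvPolynomial (Fin 6) ℂ) (MvPolynomial (Fin 6) ℂ),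
        φ (rename Fin.castSucc f) = X 0) ∧
      ¬ ∃ φ : AlgEquiv ℂ (MvPolynomial (Fin 5) ℂ) (MvPolynomial (Fin 5) ℂ), φ f = X 0 := by
  obtain ⟨e⟩ := Vale.Agent.P293.stable
  refine ⟨e Polynomial.X, ?_, ?_⟩
  · refine ⟨(renameEquiv ℂ (finRotate 6)).trans ((finSuccEquiv ℂ 5).trans
      ((Polynomial.mapAlgEquiv e.symm).trans
      (((Polynomial.Bivariate.swap (R := Vale.Agent.P293.A)).restrictScalars ℂ).trans
      ((Polynomial.mapAlgEquiv e).trans (finSuccEquiv ℂ 5).symm)))), ?_⟩
    have h1 : renameEquiv ℂ (finRotate 6) (rename Fin.castSucc (e Polynomial.X)) =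
        rename Fin.succ (e Polynomial.X) := by
      rw [renameEquiv_apply, rename_rename]
      congr 2
      funext i
      fin_cases i <;> rfl
    have h2 : ∀ g : MvPolynomial (Fin 5) ℂ,
        finSuccEquiv ℂ 5 (rename Fin.succ g) = Polynomial.C g := by
      intro g
      have : ((finSuccEquiv ℂ 5 : MvPolynomial (Fin 6) ℂ →ₐ[ℂ] _).comp (rename Fin.succ)) =
          Polynomial.CAlgHom := by
        refine MvPolynomial.algHom_ext fun i => ?_
        simp [finSuccEquiv_X_succ]
      exact DFunLike.congr_fun this g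
    simp only [AlgEquiv.trans_apply, h1, h2]
    rw [AlgEquiv.symm_apply_eq, finSuccEquiv_X_zero]
    simp [Polynomial.Bivariate.swap_X]
  · rintro ⟨φ, hφ⟩
    let ψ : Polynomial Vale.Agent.P293.A ≃ₐ[ℂ] Polynomial (MvPolynomial (Fin 4) ℂ) :=
      e.trans (φ.trans (finSuccEquiv ℂ 4))
    have hψ : ψ Polynomial.X = Polynomial.X := by
      simp only [ψ, AlgEquiv.trans_apply, hφ, finSuccEquiv_X_zero]
    obtain ⟨e'⟩ := Vale.Agent.P293.equiv_of_polynomial_equiv ψ hψ
    exact Vale.Agent.P293.not_poly.false e'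

end Vale.Agent.Results.P295.FromCancel
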